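import Vale.Agent.P167.H440.ByBil
import Vale.Agent.P167.H635.Bdy

/-!
# Ratio mixing next to a boundary with one free and one wired arc, `q ≤ 1`

`A` is any set of squares of the box `(x, R)`; the configuration in the part of the box outside of
`A` is `κ`, whose open squares form one cluster which touches the outside of the box (`OneArc`); the
configuration outside of the box is arbitrary. The only input is the bound `AmAt` for the primal arms
in the part of the annulus in the domain; no boundary squares are used by these arms.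
-/

namespace Vale.Agent.P167.H440

open Finset Relation Vale.Agent.P167.FK Vale.Agent.P167.FKA Vale.Agent.P167.H635
open Vale.Agent.P145.FB (PStep PConn)
open Vale.Agent.P167.H259 (f_markov Ex_out PC_mono)
open Vale.Agent.P167.H519 (cf_in Sx Jn ind_le_of_imp Rat loc_mono pa_cor pb_cor pa_even pb_even
  conn_symm)
open Vale.Agent.P167.H562.GL (near_of_corx far_of_corx)

variable {Q : ℝ} {x : ℤ × ℤ} {r r1 R1 R : ℤ} {A V D D' E : Finset (ℤ × ℤ)} {κ ξ ξ' η η' : Cfg}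
  {F G : Cfg → ℝ} {p : ℝ}

/-! ### Arms which use only the squares of a set -/

/-- More squares, more paths. -/
theorem path_mono {F F' : Set (ℤ × ℤ)} (h : F ⊆ F') {s t : ℤ × ℤ}
    (hst : ReflTransGen (PStep F) s t) : ReflTransGen (PStep F') s t := by
  induction hst with
  | refl => exact ReflTransGen.refl
  | tail _ k ih => exact ih.tail ⟨k.1, k.2.1, h k.2.2⟩

/-- The part of a path between two boxes. -/
theorem ann_path {F : Set (ℤ × ℤ)} {u v : ℤ × ℤ} (hrR : r ≤ R) (h : ReflTransGen (PStep F) u v)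
    (hu : nm (u - x) ≤ r) (hv : R ≤ nm (v - x)) :
    ∃ u' v' : ℤ × ℤ, (u'.1 + u'.2) % 2 = (u.1 + u.2) % 2 ∧ nm (u' - x) ≤ r ∧ R ≤ nm (v' - x) ∧
      ReflTransGen (PStep (F ∩ ↑(Ann x r R))) u' v' := by
  obtain ⟨v', h1, h2⟩ := exit h (hu.trans hrR) hv
  have hb : ReflTransGen (PStep (F ∩ ↑(Bq x R))) u v' := by
    obtain ⟨h0, h3⟩ := h2
    clear h1
    induction h3 with
    | refl => exact ReflTransGen.refl
    | @tail a b hab hst ih =>
      have ha : nm (a - x) ≤ R :=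
        (show PConn F {w | nm (w - x) ≤ R} u a from ⟨h0, hab⟩).right_mem
      exact ih.tail ⟨hst.1.1, hst.1.2.1, hst.1.2.2, Finset.mem_coe.2 (step_mem hst.1 ha hst.2)⟩
  have key : ∀ a, ReflTransGen (PStep (F ∩ ↑(Bq x R))) a v' →
      (∃ u', (u'.1 + u'.2) % 2 = (a.1 + a.2) % 2 ∧ nm (u' - x) ≤ r ∧
        ReflTransGen (PStep (F ∩ ↑(Ann x r R))) u' v') ∨
      ReflTransGen (PStep (F ∩ ↑(Ann x r R))) a v' := by
    intro a ha
    induction ha using ReflTransGen.head_induction_on with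
    | refl => exact Or.inr ReflTransGen.refl
    | @head a b hab _ ih =>
      have hpar : (b.1 + b.2) % 2 = (a.1 + a.2) % 2 := by
        obtain ⟨k1, k2, -⟩ := hab
        omega
      rcases ih with ⟨u', h3, h4, h5⟩ | ih
      · exact Or.inl ⟨u', h3.trans hpar, h4, h5⟩
      · by_cases hm : (min a.1 b.1, min a.2 b.2) ∈ Bq x r
        · exact Or.inl ⟨b, hpar, (step_nm hab hm).2, ih⟩
        · exact Or.inr (ReflTransGen.head ⟨hab.1, hab.2.1, hab.2.2.1,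
            Finset.mem_coe.2 (mem_Ann.2 ⟨Finset.mem_coe.1 hab.2.2.2, hm⟩)⟩ ih)
  rcases key u hb with ⟨u', h3, h4, h5⟩ | h5
  · exact ⟨u', v', h3, h4, h1.ge, h5⟩
  · exact ⟨u, v', rfl, hu, h1.ge, h5⟩

/-- The event of an arm of open squares of `E`. -/
def AmE (E : Finset (ℤ × ℤ)) (x : ℤ × ℤ) (r R : ℤ) : Set Cfg :=
  {ω | ∃ u v : ℤ × ℤ, (u.1 + u.2) % 2 = 0 ∧ nm (u - x) ≤ r ∧ R ≤ nm (v - x) ∧
    ReflTransGen (PStep (op ω ∩ ↑E)) u v}

/-- The bound for the arms in the domain, all configurations elsewhere. -/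
def AmAt (Q : ℝ) (x : ℤ × ℤ) (r R : ℤ) (D : Finset (ℤ × ℤ)) (p : ℝ) : Prop :=
  ∀ η : Cfg, Good η → Pr Q (D ∩ Ann x r R) η (AmE (D ∩ Ann x r R) x r R) ≤ p

theorem AmAt.congr (h : AmAt Q x r R D p) (hD : D ∩ Ann x r R = D' ∩ Ann x r R) :
    AmAt Q x r R D' p := by
  intro η hη
  rw [← hD]
  exact h η hη

theorem AmAt.le {p' : ℝ} (h : AmAt Q x r R D p) (hp : p ≤ p') : AmAt Q x r R D p' :=
  fun η hη => (h η hη).trans hp

theorem AmAt.nonneg (hQ0 : 0 < Q) (h : AmAt Q x r R D p) : 0 ≤ p :=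
  (Pr_nonneg hQ0 _).trans (h eta0 f_good.2.1)

/-- The conditional form. -/
theorem AmAt.ex (hQ0 : 0 < Q) (h : AmAt Q x r R D p) (hη : Good η)
    (hG0 : ∀ ω, 0 ≤ G ω) (hG : Ind (D ∩ Ann x r R) G) :
    Ex Q D η (fun ω => G ω * (AmE (D ∩ Ann x r R) x r R).indicator 1 ω) ≤ p * Ex Q D η G := by
  rw [markov f_markov hQ0 (A := D ∩ Ann x r R) Finset.inter_subset_left hη hG, ← Ex_mul_left]
  refine Ex_mono hQ0 fun S _ => ?_
  rw [mul_comm p]
  exact mul_le_mul_of_nonneg_left (h _ (f_good.1 D η S hη)) (hG0 _)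

theorem AmAt.pr (hQ0 : 0 < Q) (h : AmAt Q x r R D p) (hη : Good η) :
    Pr Q D η (AmE (D ∩ Ann x r R) x r R) ≤ p := by
  have h1 := h.ex hQ0 hη (G := fun _ => 1) (fun _ => zero_le_one) fun _ _ _ => rfl
  rw [Ex_const hQ0, mul_one] at h1
  simp only [one_mul] at h1
  exact h1

/-! ### The wirings -/

/-- Open outside of the box, `κ` in the box. -/
noncomputable def wak (x : ℤ × ℤ) (R : ℤ) (κ : Cfg) : Cfg := msk (Bq x R) eta1 κ

theorem good_wak (x : ℤ × ℤ) (R : ℤ) (κ : Cfg) : Good (wak x R κ) := by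
  have h : wak x R κ = cf (Bq x R) eta1 ((Bq x R).filter fun v => κ v = true) := by
    funext v
    unfold wak msk
    split_ifs with h
    · rw [cf_in h]
      simp only [Finset.mem_filter, h, true_and]
      cases κ v <;> simp
    · rw [cf_out h]
  rw [h]
  exact f_good.1 _ _ _ f_good.2.2

theorem wak_in {v : ℤ × ℤ} (h : v ∈ Bq x R) : wak x R κ v = κ v := if_pos h

theorem wak_out {v : ℤ × ℤ} (h : v ∉ Bq x R) : wak x R κ v = true := by
  rw [wak, msk, if_neg h]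
  rfl

/-- `ξ` outside of the box, closed in the box. -/
noncomputable def cbx (x : ℤ × ℤ) (R : ℤ) (ξ : Cfg) : Cfg := msk (Bq x R) ξ fun _ => false

theorem cbx_in {v : ℤ × ℤ} (h : v ∈ Bq x R) : cbx x R ξ v = false := if_pos h

theorem cbx_out {v : ℤ × ℤ} (h : v ∉ Bq x R) : cbx x R ξ v = ξ v := if_neg h

/-- The sites of the open squares of `κ` in the box and outside of `A`. -/
def Hs (x : ℤ × ℤ) (R : ℤ) (A : Finset (ℤ × ℤ)) (κ : Cfg) : Set (ℤ × ℤ) :=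
  {s | Even (s.1 + s.2) ∧ ∃ v ∈ Bq x R, v ∉ A ∧ κ v = true ∧ Cor v s}

/-- The open squares of `κ` in the box and outside of `A`. -/
def Hq (x : ℤ × ℤ) (R : ℤ) (A : Finset (ℤ × ℤ)) (κ : Cfg) : Set (ℤ × ℤ) :=
  {v | v ∈ Bq x R ∧ v ∉ A ∧ κ v = true}

/-- **One wired arc**: the open squares of `κ` in the box outside of `A` are joined to each other,
and touch the outside of the box. -/
structure OneArc (x : ℤ × ℤ) (R : ℤ) (A : Finset (ℤ × ℤ)) (κ : Cfg) : Prop where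
  con : ∀ s ∈ Hs x R A κ, ∀ t ∈ Hs x R A κ, ReflTransGen (PStep (Hq x R A κ)) s t
  out : (Hs x R A κ).Nonempty → ∃ s ∈ Hs x R A κ, R ≤ nm (s - x)

/-- Agreement with `κ` on the part of the box outside of `A`. -/
def Ag (x : ℤ × ℤ) (R : ℤ) (A : Finset (ℤ × ℤ)) (κ ξ : Cfg) : Prop :=
  ∀ v ∈ Bq x R, v ∉ A → ξ v = κ v

theorem ag_wak (x : ℤ × ℤ) (R : ℤ) (A : Finset (ℤ × ℤ)) (κ : Cfg) : Ag x R A κ (wak x R κ) :=
  fun _ h _ => wak_in h

theorem hq_pc (h : OneArc x R A κ) (hκ : Ag x R A κ ξ) {s t : ℤ × ℤ} (hs : s ∈ Hs x R A κ)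
    (ht : t ∈ Hs x R A κ) : PC (cf A ξ ∅) s t := by
  refine path_mono ?_ (h.con s hs t ht)
  rintro v ⟨h1, h2, h3⟩
  show cf A ξ ∅ v = true
  rw [cf_out h2, hκ v h1 h2]
  exact h3

theorem hs_of {v s : ℤ × ℤ} (h1 : v ∈ Bq x R) (h2 : v ∉ A) (h3 : κ v = true) (h4 : Cor v s)
    (h5 : Even (s.1 + s.2)) : s ∈ Hs x R A κ := ⟨h5, v, h1, h2, h3, h4⟩

theorem wi_low (h : OneArc x R A κ) (hκ : Ag x R A κ ξ) : Wi A (cbx x R ξ) ξ (Hs x R A κ) where
  le v _ hv := by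
    by_cases hb : v ∈ Bq x R
    · rw [cbx_in hb] at hv
      simp at hv
    · rwa [cbx_out hb] at hv
  new v hv h0 h1 := by
    by_cases hb : v ∈ Bq x R
    · have h2 : κ v = true := by rw [← hκ v hb hv]; exact h1
      exact ⟨hs_of hb hv h2 (pa_cor v) (pa_even v), hs_of hb hv h2 (pb_cor v) (pb_even v)⟩
    · rw [cbx_out hb, h1] at h0
      simp at h0
  con s hs t ht := hq_pc h hκ hs ht

theorem far_conn (hA : A ⊆ Bq x R) {s t : ℤ × ℤ} (hs : s ∈ far x R) (ht : t ∈ far x R) :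
    PC (cf A (wak x R κ) ∅) s t := by
  refine outside_conn (a := x.1 - R) (b := x.1 + R - 1) (c := x.2 - R) (d := x.2 + R - 1)
    (fun v hv => ?_) hs.1 ht.1 ?_ ?_
  · show cf A (wak x R κ) ∅ v = true
    have hvB : v ∉ Bq x R := fun h => by
      rw [mem_Bq] at h
      omega
    rw [cf_out fun h => hvB (hA h), wak_out hvB]
  · have := far_iff.1 hs.2
    omega
  · have := far_iff.1 ht.2
    omega

theorem wi_wak (h : OneArc x R A κ) (hA : A ⊆ Bq x R) :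
    Wi A (cbx x R ξ) (wak x R κ) (far x R ∪ Hs x R A κ) where
  le v hv hξ := by
    by_cases hb : v ∈ Bq x R
    · rw [cbx_in hb] at hξ
      simp at hξ
    · exact wak_out hb
  new v hv _ h1 := by
    by_cases hb : v ∈ Bq x R
    · rw [wak_in hb] at h1
      exact ⟨Or.inr (hs_of hb hv h1 (pa_cor v) (pa_even v)),
        Or.inr (hs_of hb hv h1 (pb_cor v) (pb_even v))⟩
    · exact ⟨Or.inl ⟨pa_even v, far_of_corx hb (pa_cor v)⟩,
        Or.inl ⟨pb_even v, far_of_corx hb (pb_cor v)⟩⟩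
  con := by
    have key : ∀ s ∈ far x R ∪ Hs x R A κ, ∃ t ∈ far x R, PC (cf A (wak x R κ) ∅) s t := by
      rintro s (hs | hs)
      · exact ⟨s, hs, ReflTransGen.refl⟩
      · obtain ⟨t, ht, ht'⟩ := h.out ⟨s, hs⟩
        exact ⟨t, ⟨ht.1, ht'⟩, hq_pc h (ag_wak x R A κ) hs ht⟩
    intro s hs t ht
    obtain ⟨s', hs', h1⟩ := key s hs
    obtain ⟨t', ht', h2⟩ := key t ht
    exact PC_trans (PC_trans h1 (far_conn hA hs' ht')) (PC_symm h2)

/-- A connection of `V` with the far sites gives an arm. -/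
theorem am_of_jn (hrR : r ≤ R) (hV : V ⊆ Bq x r) {ω : Cfg}
    (h : Jn (far x R) V (msk A (cbx x R ξ) ω)) : ω ∈ AmE (A ∩ Ann x r R) x r R := by
  obtain ⟨s, ⟨hse, hs⟩, u, ⟨w, hw, hwu⟩, hsu⟩ := h
  have hpar := rtg_parity hsu
  obtain ⟨u', v', h1, h2, h3, h4⟩ := ann_path hrR (conn_symm hsu) (near_of_corx (hV hw) hwu) hs
  refine ⟨u', v', ?_, h2, h3, path_mono ?_ h4⟩
  · rw [Int.even_iff] at hse
    omega
  · rintro v ⟨hv1, hv2⟩
    have hvb : v ∈ Bq x R := (mem_Ann.1 (Finset.mem_coe.1 hv2)).1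
    have hv3 : msk A (cbx x R ξ) ω v = true := hv1
    by_cases hvA : v ∈ A
    · rw [msk, if_pos hvA] at hv3
      exact ⟨hv3, Finset.mem_coe.2 (Finset.mem_inter.2 ⟨hvA, Finset.mem_coe.1 hv2⟩)⟩
    · rw [msk, if_neg hvA, cbx_in hvb] at hv3
      simp at hv3

/-! ### The box -/

section box

/-- The reference value. -/
noncomputable def Kv (Q : ℝ) (x : ℤ × ℤ) (R : ℤ) (D : Finset (ℤ × ℤ)) (κ : Cfg) (F : Cfg → ℝ) : ℝ :=
  Ex Q (D ∩ Bq x R) (wak x R κ) F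

variable (hQ0 : 0 < Q) (hQ1 : Q ≤ 1) (hrR : r ≤ R) (hp : AmAt Q x r R A p)
  (hA : A ⊆ Bq x R) (hVA : V ⊆ A) (hV : V ⊆ Bq x r) (hF0 : ∀ ω, 0 ≤ F ω) (hF : Loc V F)
  (h1 : OneArc x R A κ) (hξ : Good ξ) (hκ : Ag x R A κ ξ)

include hQ0 hQ1 hrR hp hA hVA hV hF0 hF h1 hξ hκ

/-- **Up**: from the wired condition outside of the box to any condition. -/
theorem jun_up0 : (1 - p) * Ex Q A (wak x R κ) F ≤ Ex Q A ξ F := by
  have h := bil_z hQ0 hQ1 hVA hξ (good_wak x R κ) (wi_low h1 hκ) (wi_wak (ξ := ξ) h1 hA) hF0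
    (G := fun _ => 1) (fun _ => zero_le_one) hF (fun _ _ _ => rfl)
  rw [Ex_const hQ0, Ex_const hQ0, mul_one, mul_one] at h
  have h2 : Ex Q A (wak x R κ) (fun ω => F ω * (1 - (AmE (A ∩ Ann x r R) x r R).indicator 1 ω)) ≤
      Ex Q A (wak x R κ) (fun ω => F ω *
        (1 - {ω | Jn (far x R) V (msk A (cbx x R ξ) ω)}.indicator 1 ω)) :=
    Ex_mono hQ0 fun S _ => mul_le_mul_of_nonneg_left (sub_le_sub_left
      (ind_le_of_imp fun h => am_of_jn hrR hV h) _) (hF0 _)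
  have h3 := hp.ex hQ0 (good_wak x R κ) (G := F) hF0 fun ω ω' h => hF ω ω' fun v hv => h v
    fun h' => (mem_Ann.1 (Finset.mem_inter.1 h').2).2 (hV hv)
  rw [sub_ind] at h2
  linarith

/-- **Down**: from any condition to the wired condition outside of the box. -/
theorem jun_dn0 : (1 - p) * Ex Q A ξ F ≤ Ex Q A (wak x R κ) F := by
  have h := bil_z hQ0 hQ1 hVA hξ (good_wak x R κ) (wi_low h1 hκ) (wi_wak (ξ := ξ) h1 hA)
    (F := fun _ => 1) (fun _ => zero_le_one) hF0 (fun _ _ _ => rfl) hF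
  rw [Ex_const hQ0, one_mul, sub_ind (fun _ => 1), Ex_const hQ0] at h
  have h7 : Ex Q A (wak x R κ) (fun ω => (1 : ℝ) *
      {ω | Jn (far x R) V (msk A (cbx x R ξ) ω)}.indicator 1 ω) ≤ p := by
    refine le_trans (Ex_mono hQ0 fun S _ => ?_) (hp.pr hQ0 (good_wak x R κ))
    rw [one_mul]
    exact ind_le_of_imp fun h => am_of_jn hrR hV h
  have h8 : 0 ≤ Ex Q A ξ F := Ex_nonneg hQ0 fun _ _ => hF0 _
  nlinarith

end box

section dom

variable (hQ0 : 0 < Q) (hQ1 : Q ≤ 1) (hrR : r ≤ R) (hp : AmAt Q x r R D p) (hVD : V ⊆ D)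
  (hV : V ⊆ Bq x r) (hF0 : ∀ ω, 0 ≤ F ω) (hF : Loc V F) (h1 : OneArc x R D κ)
  (hη : Good η) (hκ : Ag x R D κ η)

theorem OneArc.trace (h : OneArc x R D κ) (hD : D ∩ Bq x R = D' ∩ Bq x R) : OneArc x R D' κ := by
  have e : ∀ v ∈ Bq x R, v ∉ D ↔ v ∉ D' := fun v hv => by
    have := Finset.ext_iff.1 hD v
    simp only [Finset.mem_inter, hv, and_true] at this
    exact not_congr this
  have e1 : Hs x R D κ = Hs x R D' κ := by
    ext s
    constructor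
    · rintro ⟨h1, v, h2, h3, h4, h5⟩
      exact ⟨h1, v, h2, (e v h2).1 h3, h4, h5⟩
    · rintro ⟨h1, v, h2, h3, h4, h5⟩
      exact ⟨h1, v, h2, (e v h2).2 h3, h4, h5⟩
  have e2 : Hq x R D κ = Hq x R D' κ := by
    ext v
    constructor
    · rintro ⟨h1, h2, h3⟩
      exact ⟨h1, (e v h1).1 h2, h3⟩
    · rintro ⟨h1, h2, h3⟩
      exact ⟨h1, (e v h1).2 h2, h3⟩
  obtain ⟨h1, h2⟩ := h
  rw [e1] at h1 h2
  rw [e2] at h1
  exact ⟨h1, h2⟩

theorem Kv_nonneg (hQ0 : 0 < Q) (hF0 : ∀ ω, 0 ≤ F ω) : 0 ≤ Kv Q x R D κ F :=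
  Ex_nonneg hQ0 fun _ _ => hF0 _

theorem Kv_congr (h : D ∩ Bq x R = D' ∩ Bq x R) : Kv Q x R D κ F = Kv Q x R D' κ F := by
  rw [Kv, Kv, h]

include hQ0 hQ1 hrR hp hVD hV hF0 hF h1

/-- The two comparisons for the domain `D ∩ Bq x R`. -/
theorem jun_pt {ζ : Cfg} (hζ : Good ζ) (hcl : Ag x R D κ ζ) :
    (1 - p) * Ex Q (D ∩ Bq x R) ζ F ≤ Kv Q x R D κ F ∧
      (1 - p) * Kv Q x R D κ F ≤ Ex Q (D ∩ Bq x R) ζ F := by
  have hVA : V ⊆ D ∩ Bq x R := fun v hv =>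
    Finset.mem_inter.2 ⟨hVD hv, bq_mono hrR (hV hv)⟩
  have hcl' : Ag x R (D ∩ Bq x R) κ ζ := fun v hv hvA =>
    hcl v hv fun h => hvA (Finset.mem_inter.2 ⟨h, hv⟩)
  have hDD : D ∩ Bq x R = D ∩ Bq x R ∩ Bq x R := by
    rw [Finset.inter_assoc, Finset.inter_self]
  have hp' : AmAt Q x r R (D ∩ Bq x R) p := hp.congr (trace_ann D hDD)
  have h1' := h1.trace hDD
  exact ⟨jun_dn0 hQ0 hQ1 hrR hp' Finset.inter_subset_right hVA hV hF0 hF h1' hζ hcl',
    jun_up0 hQ0 hQ1 hrR hp' Finset.inter_subset_right hVA hV hF0 hF h1' hζ hcl'⟩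

include hη hκ

/-- **Ratio mixing** with a nonnegative function off the box. -/
theorem jun_mul (hG0 : ∀ ω, 0 ≤ G ω) (hG : Ind (D ∩ Bq x R) G) :
    (1 - p) * Ex Q D η (fun ω => G ω * F ω) ≤ Ex Q D η G * Kv Q x R D κ F ∧
      (1 - p) * (Ex Q D η G * Kv Q x R D κ F) ≤ Ex Q D η (fun ω => G ω * F ω) := by
  have h1 : ∀ S, _ := fun S => jun_pt hQ0 hQ1 hrR hp hVD hV hF0 hF h1 (ζ := cf D η S)
    (f_good.1 D η S hη) (fun v hv hvD => by rw [cf_out hvD]; exact hκ v hv hvD)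
  rw [markov f_markov hQ0 (A := D ∩ Bq x R) Finset.inter_subset_left hη hG]
  constructor
  · have e : Ex Q D η G * Kv Q x R D κ F = Ex Q D η (fun ω => Kv Q x R D κ F * G ω) := by
      rw [Ex_mul_left]; ring
    rw [e, ← Ex_mul_left]
    refine Ex_mono hQ0 fun S _ => ?_
    have := mul_le_mul_of_nonneg_right (h1 S).1 (hG0 (cf D η S))
    linarith
  · have e : (1 - p) * (Ex Q D η G * Kv Q x R D κ F) =
        Ex Q D η (fun ω => ((1 - p) * Kv Q x R D κ F) * G ω) := by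
      rw [Ex_mul_left]; ring
    rw [e]
    refine Ex_mono hQ0 fun S _ => ?_
    have := mul_le_mul_of_nonneg_right (h1 S).2 (hG0 (cf D η S))
    linarith

/-- **Ratio mixing**: comparison with the reference value. -/
theorem jun_all : (1 - p) * Ex Q D η F ≤ Kv Q x R D κ F ∧
    (1 - p) * Kv Q x R D κ F ≤ Ex Q D η F := by
  have h := jun_mul hQ0 hQ1 hrR hp hVD hV hF0 hF h1 hη hκ (G := fun _ => 1)
    (fun _ => zero_le_one) fun _ _ _ => rfl
  rw [Ex_const hQ0, one_mul] at h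
  simp only [one_mul] at h
  exact h

end dom

section two

variable (hQ0 : 0 < Q) (hQ1 : Q ≤ 1) (hrR : r ≤ R) (hp : AmAt Q x r R D p) (hp1 : p ≤ 1)
  (hDD : D ∩ Bq x R = D' ∩ Bq x R) (hVD : V ⊆ D)
  (hV : V ⊆ Bq x r) (hF0 : ∀ ω, 0 ≤ F ω) (hF : Loc V F) (h1 : OneArc x R D κ)
  (hη : Good η) (hη' : Good η') (hκ : Ag x R D κ η) (hκ' : Ag x R D' κ η')

include hQ0 hQ1 hrR hp hp1 hDD hVD hV hF0 hF h1 hη hη' hκ hκ'

/-- **Two domains** with the same trace on the box. -/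
theorem jun_two : (1 - p) ^ 2 * Ex Q D η F ≤ Ex Q D' η' F := by
  have hp' : AmAt Q x r R D' p := hp.congr (trace_ann D hDD)
  have hVD' := sub_trace hrR hDD hVD hV
  have h2 := (jun_all hQ0 hQ1 hrR hp hVD hV hF0 hF h1 hη hκ).1
  have h3 := (jun_all hQ0 hQ1 hrR hp' hVD' hV hF0 hF (h1.trace hDD) hη' hκ').2
  rw [← Kv_congr hDD] at h3
  have h4 := mul_le_mul_of_nonneg_left h2 (by linarith : (0 : ℝ) ≤ 1 - p)
  nlinarith

/-- **Two domains**, with a function off the box. -/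
theorem jun_two_mul (hG0 : ∀ ω, 0 ≤ G ω) (hG : Ind (D ∩ Bq x R) G) :
    (1 - p) ^ 2 * Ex Q D η (fun ω => G ω * F ω) ≤ Ex Q D η G * Ex Q D' η' F ∧
      (1 - p) ^ 2 * (Ex Q D η G * Ex Q D' η' F) ≤ Ex Q D η (fun ω => G ω * F ω) := by
  have hp' : AmAt Q x r R D' p := hp.congr (trace_ann D hDD)
  have hVD' := sub_trace hrR hDD hVD hV
  have h2 := jun_mul hQ0 hQ1 hrR hp hVD hV hF0 hF h1 hη hκ hG0 hG
  have h3 := jun_all hQ0 hQ1 hrR hp' hVD' hV hF0 hF (h1.trace hDD) hη' hκ'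
  rw [← Kv_congr hDD] at h3
  have hg : 0 ≤ Ex Q D η G := Ex_nonneg hQ0 fun _ _ => hG0 _
  have hq : (0 : ℝ) ≤ 1 - p := by linarith
  constructor
  · have h4 := mul_le_mul_of_nonneg_left h2.1 hq
    have h5 := mul_le_mul_of_nonneg_left h3.2 hg
    nlinarith
  · have h4 := mul_le_mul_of_nonneg_left h3.1 hg
    have h5 := mul_le_mul_of_nonneg_left h4 hq
    nlinarith [h2.2]

end two

end Vale.Agent.P167.H440
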