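import Vale.Agent.P167.H440.ByDL

/-!
# The comparison of two boundary conditions with bystanders, loop model, `q ≤ 1`

`bil_z`: `ξ` and `ξ1` arise from `ξ0` by the wiring of `𝓩` and of `𝓦 ∪ 𝓩`; the comparison needs only
that `V` is not joined to `𝓦` by the squares of `A` (and the open squares of `ξ0`).
-/

namespace Vale.Agent.P167.H440

open Finset Vale.Agent.P167.H623 Vale.Agent.P167.H661 Vale.Agent.P167.FK Vale.Agent.P167.FKA
open Vale.Agent.P167.H635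
open Vale.Agent.P145.FB (PStep PConn)
open Vale.Agent.P167.H259 (PC_mono cf_insert flip_cf cf_mono)
open Vale.Agent.P167.H519 (pa_cor pb_cor pa_even pb_even pc_of_cor cf_in Sx Jn ind_le_of_imp)

set_option linter.unusedSectionVars false

section sums

variable {V E : Type*} [Fintype V] [DecidableEq V] [Fintype E] [DecidableEq E]
  (a b : E → V) {w : E → ℝ} {q : ℝ}

/-- The bilinear inequality on the graph, arbitrary sets. -/
theorem bil_any (hw : ∀ e, 0 ≤ w e) (hq0 : 0 < q) (hq1 : q ≤ 1) (ρ : Setoid V) (W T Z : Finset V)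
    {E0 : Finset E} (hE : ∀ e ∈ E0, a e ∈ T ∧ b e ∈ T)
    {f g k : Finset E → ℝ} (hf : ∀ S, 0 ≤ f S) (hg : ∀ S, 0 ≤ g S)
    (hk1 : ∀ ω, k ω ≤ 1)
    (hk2 : ∀ ω, (∃ x ∈ T, ∃ y ∈ W, (conf a b ω ⊔ ρ) x y) → k ω ≤ 0) :
    ZF a b w q (ρ ⊔ blk (W ∪ Z)) (fun ω => f (ω ∩ E0) * k ω) *
        ZF a b w q (ρ ⊔ blk Z) (fun ω => g (ω ∩ E0)) ≤
      ZF a b w q (ρ ⊔ blk Z) (fun ω => f (ω ∩ E0)) *
        ZF a b w q (ρ ⊔ blk (W ∪ Z)) (fun ω => g (ω ∩ E0)) := by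
  have hfk : ∀ σ : Setoid V, ZF a b w q σ (fun ω => f (ω ∩ E0) * k ω) ≤
      ZF a b w q σ (fun ω => f (ω ∩ E0)) := fun σ =>
    ZF_mono a b hw hq0.le _ fun ω => by
      have := mul_le_mul_of_nonneg_left (hk1 ω) (hf (ω ∩ E0))
      linarith
  have hnn : ∀ (σ : Setoid V) (h : Finset E → ℝ), (∀ S, 0 ≤ h S) →
      0 ≤ ZF a b w q σ (fun ω => h (ω ∩ E0)) := fun σ h hh =>
    sum_nonneg fun ω _ => mul_nonneg (mul_nonneg (prod_nonneg fun e _ => hw e)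
      (pow_nonneg hq0.le _)) (hh _)
  rcases Z.eq_empty_or_nonempty with rfl | hZ
  · have e0 : ρ ⊔ blk (∅ : Finset V) = ρ := by
      refine sup_eq_left.2 ?_
      rintro x y (rfl | ⟨k, -⟩)
      · exact Setoid.refl' _ _
      · exact absurd k (notMem_empty _)
    rw [union_empty, e0]
    rcases W.eq_empty_or_nonempty with rfl | hW
    · rw [e0]
      exact mul_le_mul_of_nonneg_right (hfk _) (hnn _ g hg)
    rcases T.eq_empty_or_nonempty with rfl | hT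
    · have hE0 : E0 = ∅ := by
        rw [eq_empty_iff_forall_notMem]
        exact fun e he => absurd (hE e he).1 (notMem_empty _)
      have h1 : ∀ ω : Finset E, ω ∩ E0 = ∅ := fun ω => by rw [hE0, inter_empty]
      have h2 : ∀ (σ : Setoid V) (h : Finset E → ℝ), ZF a b w q σ (fun ω => h (ω ∩ E0)) =
          h ∅ * ZF a b w q σ (fun _ => 1) := fun σ h => by
        rw [ZF, ZF, mul_sum]
        refine sum_congr rfl fun ω _ => ?_
        beta_reduce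
        rw [h1]
        ring
      refine (mul_le_mul_of_nonneg_right (hfk _) (hnn _ g hg)).trans (le_of_eq ?_)
      rw [h2, h2, h2, h2]
      ring
    · exact bil_graph a b hw hq0 hq1 ρ hW hT hE hf hg hk1 hk2
  · exact bil_by a b hw hq0 hq1 ρ W T hZ hE hf hg hk1 hk2

end sums

section model

variable {Q : ℝ} {A V : Finset (ℤ × ℤ)} {ξ ξ0 ξ1 : Cfg}

open Classical in
/-- `ω` on `A`, `ξ0` outside of `A`. -/
noncomputable def msk (A : Finset (ℤ × ℤ)) (ξ0 ω : Cfg) : Cfg := fun v => if v ∈ A then ω v else ξ0 v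

theorem msk_cf (A : Finset (ℤ × ℤ)) (ξ0 ξ : Cfg) (S : Finset (ℤ × ℤ)) :
    msk A ξ0 (cf A ξ S) = cf A ξ0 S := by
  funext v
  unfold msk
  split_ifs with h
  · rw [cf_in h, cf_in h]
  · rw [cf_out h]

theorem blW_union (A : Finset (ℤ × ℤ)) (ξ : Cfg) (S T : Set (ℤ × ℤ)) :
    blW A ξ (S ∪ T) = blW A ξ S ∪ blW A ξ T := by
  classical
  ext s
  rw [mem_union, mem_blW, mem_blW, mem_blW]
  constructor
  · rintro ⟨z, hz | hz, h⟩
    · exact Or.inl ⟨z, hz, h⟩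
    · exact Or.inr ⟨z, hz, h⟩
  · rintro (⟨z, hz, h⟩ | ⟨z, hz, h⟩)
    · exact ⟨z, Or.inl hz, h⟩
    · exact ⟨z, Or.inr hz, h⟩

/-- **The bilinear inequality with bystanders.** -/
theorem bil_z (hQ0 : 0 < Q) (hQ1 : Q ≤ 1) (hVA : V ⊆ A) (hξ : Good ξ) (hξ1 : Good ξ1)
    {𝓩 𝓦 : Set (ℤ × ℤ)} (hz : Wi A ξ0 ξ 𝓩) (h : Wi A ξ0 ξ1 (𝓦 ∪ 𝓩)) {F G : Cfg → ℝ}
    (hF0 : ∀ ω, 0 ≤ F ω) (hG0 : ∀ ω, 0 ≤ G ω) (hF : Loc V F) (hG : Loc V G) :
    Ex Q A ξ1 (fun ω => F ω * (1 - {ω | Jn 𝓦 V (msk A ξ0 ω)}.indicator 1 ω)) * Ex Q A ξ G ≤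
      Ex Q A ξ F * Ex Q A ξ1 G := by
  classical
  set w : {v // v ∈ A} → ℝ := fun _ => Q with hw
  have hw0 : ∀ e, 0 ≤ w e := fun _ => hQ0.le
  have hq0 : 0 < Q ^ 2 := pow_pos hQ0 2
  have hq1 : Q ^ 2 ≤ 1 := pow_le_one₀ hQ0.le hQ1
  have z0 := ZS_pos (ea A) (eb A) hw0 hq0 (rho A ξ)
  have z1 := ZS_pos (ea A) (eb A) hw0 hq0 (rho A ξ1)
  have ind1 : ∀ ω, (1 : ℝ) - {ω | Jn 𝓦 V (msk A ξ0 ω)}.indicator 1 ω ≤ 1 := fun ω => by
    have := ind_nonneg {ω | Jn 𝓦 V (msk A ξ0 ω)} ω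
    linarith
  -- local functions do not see the outside
  have hloc : ∀ {F : Cfg → ℝ}, Loc V F → ∀ S : Finset {v // v ∈ A},
      F (cf A ξ1 (up A S)) = F (cf A ξ (up A S)) := by
    intro F hF S
    refine hF _ _ fun v hv => ?_
    rw [cf_in (hVA hv), cf_in (hVA hv)]
  set T : Finset {s // s ∈ corn A} := univ.filter fun s => s.1 ∈ corn V with hT
  set E0 : Finset {v // v ∈ A} := univ.filter fun e => e.1 ∈ V with hE0
  have hE : ∀ e ∈ E0, ea A e ∈ T ∧ eb A e ∈ T := by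
    intro e he
    rw [hE0, mem_filter] at he
    rw [hT, mem_filter, mem_filter]
    exact ⟨⟨mem_univ _, pa_corn V he.2⟩, mem_univ _, pb_corn V he.2⟩
  have hin : ∀ {F : Cfg → ℝ}, Loc V F → ∀ S : Finset {v // v ∈ A},
      F (cf A ξ (up A S)) = F (cf A ξ (up A (S ∩ E0))) := by
    intro F hF S
    refine hF _ _ fun v hv => ?_
    rw [cf_in (hVA hv), cf_in (hVA hv)]
    congr 1
    rw [mem_up, mem_up, eq_iff_iff]
    constructor
    · rintro ⟨h1, h2⟩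
      exact ⟨h1, mem_inter.2 ⟨h2, by rw [hE0, mem_filter]; exact ⟨mem_univ _, hv⟩⟩⟩
    · rintro ⟨h1, h2⟩
      exact ⟨h1, (mem_inter.1 h2).1⟩
  have main := bil_any (ea A) (eb A) hw0 hq0 hq1 (rho A ξ0) (blW A ξ0 𝓦) T (blW A ξ0 𝓩) hE
    (f := fun S => F (cf A ξ (up A S))) (g := fun S => G (cf A ξ (up A S)))
    (k := fun S => 1 - {ω | Jn 𝓦 V (msk A ξ0 ω)}.indicator 1 (cf A ξ1 (up A S)))
    (fun _ => hF0 _) (fun _ => hG0 _) (fun _ => ind1 _) (by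
      rintro S ⟨x, hx, y, hy, hxy⟩
      rw [con_iff] at hxy
      obtain ⟨z, hz, hyz⟩ := mem_blW.1 hy
      have h1 : Jn 𝓦 V (msk A ξ0 (cf A ξ1 (up A S))) := by
        have hx2 : x.1 ∈ V.image FK.pa ∪ V.image FK.pb := (mem_filter.1 hx).2
        rw [mem_union, mem_image, mem_image] at hx2
        rw [msk_cf]
        refine ⟨z, hz, x.1, ?_, ?_⟩
        · rcases hx2 with ⟨v, hv, hvx⟩ | ⟨v, hv, hvx⟩
          · exact ⟨v, hv, hvx ▸ pa_cor v⟩
          · exact ⟨v, hv, hvx ▸ pb_cor v⟩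
        · exact PC_symm (PC_trans hxy (PC_mono (cf_mono (empty_subset _)) hyz))
      rw [Set.indicator_of_mem (show cf A ξ1 (up A S) ∈ {ω | Jn 𝓦 V (msk A ξ0 ω)} from h1)]
      simp)
  rw [← blW_union, ← rho_wire h, ← rho_wire hz] at main
  -- back to the loop model
  have e1 := ex_zf hQ0 hξ1 (A := A)
    (fun ω => F ω * (1 - {ω | Jn 𝓦 V (msk A ξ0 ω)}.indicator 1 ω))
  have e2 := ex_zf hQ0 hξ G (A := A)
  have e3 := ex_zf hQ0 hξ F (A := A)
  have e4 := ex_zf hQ0 hξ1 G (A := A)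
  have c1 : (fun S : Finset {v // v ∈ A} => F (cf A ξ1 (up A S)) *
      (1 - {ω | Jn 𝓦 V (msk A ξ0 ω)}.indicator 1 (cf A ξ1 (up A S)))) =
      fun S => F (cf A ξ (up A (S ∩ E0))) *
        (1 - {ω | Jn 𝓦 V (msk A ξ0 ω)}.indicator 1 (cf A ξ1 (up A S))) :=
    funext fun S => by rw [hloc hF, hin hF]
  have c2 : (fun S : Finset {v // v ∈ A} => G (cf A ξ (up A S))) =
      fun S => G (cf A ξ (up A (S ∩ E0))) := funext fun S => hin hG S
  have c3 : (fun S : Finset {v // v ∈ A} => F (cf A ξ (up A S))) =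
      fun S => F (cf A ξ (up A (S ∩ E0))) := funext fun S => hin hF S
  have c4 : (fun S : Finset {v // v ∈ A} => G (cf A ξ1 (up A S))) =
      fun S => G (cf A ξ (up A (S ∩ E0))) := funext fun S => by rw [hloc hG, hin hG]
  rw [c1] at e1
  rw [c2] at e2
  rw [c3] at e3
  rw [c4] at e4
  rw [← e1, ← e2, ← e3, ← e4] at main
  have hzz := mul_pos z0 z1
  refine le_of_mul_le_mul_right ?_ hzz
  linarith [main]

end model

end Vale.Agent.P167.H440
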