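import Vale.Agent.P167.H262.Gc
import Vale.Agent.P167.H635.Bil

/-!
# Decoupling with bystanders, `q ≤ 1`

The points of `Z` are wired to those of `W` (and of `T`), but the connections in the event do not
use this identification. `bil_by`: the comparison of the boundary conditions `ρ` with `Z` wired and
`ρ` with `W ∪ Z` wired.
-/

namespace Vale.Agent.P167.H440

open Finset Vale.Agent.P167.H623 Vale.Agent.P167.H661 Vale.Agent.P167.H635
open Vale.Agent.P167.H262 (wq Ew FF N5 cc Trace Local)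

set_option linter.unusedSectionVars false

variable {V E : Type*} [Fintype V] [DecidableEq V] [Fintype E] [DecidableEq E]
  (a b : E → V) {w : E → ℝ} {q s : ℝ}

theorem local_one (T B : Finset V) : Local a b T B fun _ => (1 : ℝ) := fun _ _ _ _ => rfl

open Classical in
theorem miss_eq (hw : ∀ e, 0 ≤ w e) (hs : s < 1) (T Z W : Finset V) :
    ∑ ω, wq a b w (1 - s) (W ∪ Z) ω * (if Miss a b T W ω then 1 else 0) =
      ∑ R ∈ (Wᶜ).powerset with T ⊆ R, cc a b w s (FF a b (1 - s) T Z ∅ fun _ => 1) T Z R *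
        XX a b w s (Wᶜ \ (R ∪ Z)) := by
  have h := H262.sum_wq_miss (a := a) (b := b) (w := w) (q := 1 - s) (T := T) (B := Z) (T' := ∅)
    (empty_subset _) (local_one a b T Z) W
  rw [union_empty] at h
  rw [h, sub_sub_cancel]
  exact H262.N5_rec hw s (fun ζ => H262.FF_trace (by linarith) (empty_subset _)
    (fun _ => zero_le_one) (local_one a b T Z) ζ) _

open Classical in
/-- **Decoupling with bystanders**, free case. -/
theorem dl_by_bot (hw : ∀ e, 0 ≤ w e) (hs0 : 0 ≤ s) (hs : s < 1) (W T Z : Finset V) :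
    (∑ ω, wq a b w (1 - s) (W ∪ Z) ω * (if Miss a b T W ω then 1 else 0)) *
        XX a b w s (T ∪ Z)ᶜ ≤ XX a b w s (W ∪ T ∪ Z)ᶜ * XX a b w s Zᶜ := by
  have h2 : ∀ ω : Finset E, Miss a b T ∅ ω := fun ω x _ y hy => absurd hy (notMem_empty y)
  have h3 : XX a b w s Zᶜ = ∑ ω, wq a b w (1 - s) (∅ ∪ Z) ω *
      (if Miss a b T ∅ ω then 1 else 0) := by
    have h4 := H262.sum_wq (a := a) (b := b) w (1 - s) Z
    rw [sub_sub_cancel] at h4
    rw [← h4, empty_union]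
    exact sum_congr rfl fun ω _ => by rw [if_pos (h2 ω), mul_one]
  rw [h3, miss_eq a b hw hs T Z ∅, miss_eq a b hw hs T Z W, sum_mul, mul_sum]
  have hpos : ∀ R : Finset V, 0 ≤ cc a b w s (FF a b (1 - s) T Z ∅ fun _ => 1) T Z R := fun R =>
    H262.cc_nonneg hw hs0 hs.le (fun ζ => H262.FF_trace (by linarith) (empty_subset _)
      (fun _ => zero_le_one) (local_one a b T Z) ζ) R
  have hsub : ((Wᶜ).powerset.filter fun R => T ⊆ R) ⊆
      ((∅ : Finset V)ᶜ).powerset.filter fun R => T ⊆ R := by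
    refine filter_subset_filter _ (powerset_mono.2 ?_)
    rw [compl_empty]
    exact subset_univ _
  refine le_trans (sum_le_sum fun R hR => ?_) (sum_le_sum_of_subset_of_nonneg hsub fun R _ _ =>
    mul_nonneg (XX_pos a b w s hw hs _).le
      (mul_nonneg (hpos R) (XX_pos a b w s hw hs _).le))
  rw [mem_filter, mem_powerset, subset_compl_iff_disjoint_right] at hR
  obtain ⟨hRW, hTR⟩ := hR
  have k1 := xx_mono a b hw hs0 hs (D := (W ∪ R ∪ Z)ᶜ) (D' := (W ∪ T ∪ Z)ᶜ) (U := W \ Z)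
    (compl_subset_compl.2 (union_subset_union_left (union_subset_union_right hTR)))
    (by
      rw [disjoint_left]
      intro x hx hxW
      exact (mem_compl.1 hx) (mem_union_left _ (mem_union_left _ (mem_sdiff.1 hxW).1)))
  have hx1 : ∀ x, x ∈ W → x ∉ R := fun x hx hxR => disjoint_left.1 hRW hxR hx
  have e1 : (W ∪ T ∪ Z)ᶜ ∪ W \ Z = (T ∪ Z)ᶜ := by
    ext x
    have := hx1 x
    have := @hTR x
    simp only [mem_union, mem_compl, mem_sdiff]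
    tauto
  have e2 : (W ∪ R ∪ Z)ᶜ ∪ W \ Z = (∅ : Finset V)ᶜ \ (R ∪ Z) := by
    ext x
    have := hx1 x
    simp only [mem_union, mem_compl, mem_sdiff, notMem_empty, not_false_iff, true_and]
    tauto
  have e3 : Wᶜ \ (R ∪ Z) = (W ∪ R ∪ Z)ᶜ := by
    ext x
    simp only [mem_union, mem_compl, mem_sdiff]
    tauto
  rw [e1, e2] at k1
  rw [e3]
  have := mul_le_mul_of_nonneg_left k1 (hpos R)
  nlinarith [this]

theorem dl2_by_bot (hw : ∀ e, 0 ≤ w e) (hs0 : 0 ≤ s) (hs : s < 1) (W T Z : Finset V) :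
    XX a b w s (W ∪ T ∪ Z)ᶜ * XX a b w s Zᶜ ≤ XX a b w s (W ∪ Z)ᶜ * XX a b w s (T ∪ Z)ᶜ := by
  have h1 := xx_mono a b hw hs0 hs (D := (W ∪ T ∪ Z)ᶜ) (D' := (T \ (W ∪ Z) ∪ Z)ᶜ)
    (U := T \ (W ∪ Z)) ?_ ?_
  · have e1 : (W ∪ T ∪ Z)ᶜ ∪ T \ (W ∪ Z) = (W ∪ Z)ᶜ := by
      ext x
      simp only [mem_union, mem_compl, mem_sdiff]
      tauto
    have e2 : (T \ (W ∪ Z) ∪ Z)ᶜ ∪ T \ (W ∪ Z) = Zᶜ := by
      ext x
      simp only [mem_union, mem_compl, mem_sdiff]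
      tauto
    rw [e1, e2] at h1
    have h2 := xx_anti a b hw hs0 hs (D := (T ∪ Z)ᶜ) (D' := (T \ (W ∪ Z) ∪ Z)ᶜ)
      (compl_subset_compl.2 (union_subset_union_left sdiff_subset))
    have h3 := mul_le_mul_of_nonneg_right h2 (XX_pos a b w s hw hs (W ∪ Z)ᶜ).le
    linarith
  · refine compl_subset_compl.2 fun x hx => ?_
    simp only [mem_union, mem_sdiff] at hx ⊢
    tauto
  · rw [disjoint_left]
    intro x hx hx'
    exact (mem_compl.1 hx) (mem_union_left _ hx')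

/-! ### The same for an arbitrary boundary condition -/

open Classical in
theorem zs_blk_miss' {Y : Finset V} (hY : Y.Nonempty) (T W : Finset V) :
    ZS a b w (1 - s) (blk Y) (fun ω => ∀ x ∈ T, ∀ y ∈ W, ¬ conf a b ω x y) =
      (1 - s) * ∑ ω, wq a b w (1 - s) Y ω * (if Miss a b T W ω then 1 else 0) := by
  rw [ZS, sum_filter, powerset_univ, mul_sum]
  refine sum_congr rfl fun ω _ => ?_
  rw [card_classes_blk, if_neg hY.ne_empty, wq]
  have h : Miss a b T W ω ↔ ∀ x ∈ T, ∀ y ∈ W, ¬ conf a b ω x y :=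
    forall₂_congr fun x _ => forall₂_congr fun y _ => not_congr (conn_iff a b ω x y)
  by_cases hc : ∀ x ∈ T, ∀ y ∈ W, ¬ conf a b ω x y
  · rw [if_pos hc, if_pos (h.2 hc), pow_succ]
    ring
  · rw [if_neg hc, if_neg fun k => hc (h.1 k)]
    ring

theorem dl1_by_bot (hw : ∀ e, 0 ≤ w e) (hq0 : 0 < q) (hq1 : q ≤ 1) (W T : Finset V) {Z : Finset V}
    (hZ : Z.Nonempty) :
    ZS a b w q (blk (W ∪ Z)) (fun ω => ∀ x ∈ T, ∀ y ∈ W, ¬ conf a b ω x y) *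
        ZS a b w q (blk (T ∪ Z)) (fun _ => True) ≤
      ZS a b w q (blk (W ∪ T ∪ Z)) (fun _ => True) * ZS a b w q (blk Z) (fun _ => True) := by
  obtain ⟨s, rfl⟩ : ∃ s, q = 1 - s := ⟨1 - q, by ring⟩
  have hs0 : 0 ≤ s := by linarith
  have hs1 : s < 1 := by linarith
  rw [zs_blk_miss' a b (hZ.mono subset_union_right), zs_blk a b (hZ.mono subset_union_right),
    zs_blk a b (hZ.mono subset_union_right), zs_blk a b hZ]
  have h := dl_by_bot a b hw hs0 hs1 W T Z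
  have h2 := mul_le_mul_of_nonneg_left h (mul_self_nonneg (1 - s))
  linarith [h2]

theorem dl2_by_bot' (hw : ∀ e, 0 ≤ w e) (hq0 : 0 < q) (hq1 : q ≤ 1) (W T : Finset V)
    {Z : Finset V} (hZ : Z.Nonempty) :
    ZS a b w q (blk (W ∪ T ∪ Z)) (fun _ => True) * ZS a b w q (blk Z) (fun _ => True) ≤
      ZS a b w q (blk (W ∪ Z)) (fun _ => True) * ZS a b w q (blk (T ∪ Z)) (fun _ => True) := by
  obtain ⟨s, rfl⟩ : ∃ s, q = 1 - s := ⟨1 - q, by ring⟩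
  have hs0 : 0 ≤ s := by linarith
  have hs1 : s < 1 := by linarith
  rw [zs_blk a b (hZ.mono subset_union_right), zs_blk a b (hZ.mono subset_union_right),
    zs_blk a b (hZ.mono subset_union_right), zs_blk a b hZ]
  have h := dl2_by_bot a b hw hs0 hs1 W T Z
  have h2 := mul_le_mul_of_nonneg_left h (mul_self_nonneg (1 - s))
  linarith [h2]

open Classical in
/-- **Decoupling with bystanders**. -/
theorem dl1_by (hw : ∀ e, 0 ≤ w e) (hq0 : 0 < q) (hq1 : q ≤ 1) (ρ : Setoid V) (W T : Finset V)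
    {Z : Finset V} (hZ : Z.Nonempty) :
    ZS a b w q (ρ ⊔ blk (W ∪ Z)) (fun ω => ∀ x ∈ T, ∀ y ∈ W, ¬ (conf a b ω ⊔ ρ) x y) *
        ZS a b w q (ρ ⊔ blk (T ∪ Z)) (fun _ => True) ≤
      ZS a b w q (ρ ⊔ blk (W ∪ T ∪ Z)) (fun _ => True) *
        ZS a b w q (ρ ⊔ blk Z) (fun _ => True) := by
  have : Fintype (Quotient ρ) := Fintype.ofFinite _
  have h := dl1_by_bot (fun e => Quotient.mk ρ (a e)) (fun e => Quotient.mk ρ (b e)) hw hq0 hq1
    (W.image (Quotient.mk ρ)) (T.image (Quotient.mk ρ)) (hZ.image (Quotient.mk ρ))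
  have hA : ∀ ω : Finset E, (∀ x ∈ T.image (Quotient.mk ρ), ∀ y ∈ W.image (Quotient.mk ρ),
      ¬ conf (fun e => Quotient.mk ρ (a e)) (fun e => Quotient.mk ρ (b e)) ω x y) ↔
      ∀ x ∈ T, ∀ y ∈ W, ¬ (conf a b ω ⊔ ρ) x y := by
    intro ω
    constructor
    · intro k x hx y hy hxy
      exact k _ (mem_image_of_mem _ hx) _ (mem_image_of_mem _ hy) ((conf_mk a b ρ ω x y).2 hxy)
    · intro k u hu v hv huv
      obtain ⟨x, hx, rfl⟩ := mem_image.1 hu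
      obtain ⟨y, hy, rfl⟩ := mem_image.1 hv
      exact k x hx y hy ((conf_mk a b ρ ω x y).1 huv)
  rw [← image_union, ← image_union, ← image_union, ← image_union,
    zs_mk a b ρ (mk_blk a b ρ (W ∪ Z)) hA,
    zs_mk a b ρ (mk_blk a b ρ (T ∪ Z)) fun _ => Iff.rfl,
    zs_mk a b ρ (mk_blk a b ρ (W ∪ T ∪ Z)) fun _ => Iff.rfl,
    zs_mk a b ρ (mk_blk a b ρ Z) fun _ => Iff.rfl] at h
  exact h

open Classical in
/-- **Decoupling with bystanders**, the partition functions. -/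
theorem dl2_by (hw : ∀ e, 0 ≤ w e) (hq0 : 0 < q) (hq1 : q ≤ 1) (ρ : Setoid V) (W T : Finset V)
    {Z : Finset V} (hZ : Z.Nonempty) :
    ZS a b w q (ρ ⊔ blk (W ∪ T ∪ Z)) (fun _ => True) * ZS a b w q (ρ ⊔ blk Z) (fun _ => True) ≤
      ZS a b w q (ρ ⊔ blk (W ∪ Z)) (fun _ => True) *
        ZS a b w q (ρ ⊔ blk (T ∪ Z)) (fun _ => True) := by
  have : Fintype (Quotient ρ) := Fintype.ofFinite _
  have h := dl2_by_bot' (fun e => Quotient.mk ρ (a e)) (fun e => Quotient.mk ρ (b e)) hw hq0 hq1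
    (W.image (Quotient.mk ρ)) (T.image (Quotient.mk ρ)) (hZ.image (Quotient.mk ρ))
  rw [← image_union, ← image_union, ← image_union, ← image_union,
    zs_mk a b ρ (mk_blk a b ρ (W ∪ Z)) fun _ => Iff.rfl,
    zs_mk a b ρ (mk_blk a b ρ (T ∪ Z)) fun _ => Iff.rfl,
    zs_mk a b ρ (mk_blk a b ρ (W ∪ T ∪ Z)) fun _ => Iff.rfl,
    zs_mk a b ρ (mk_blk a b ρ Z) fun _ => Iff.rfl] at h
  exact h

/-- **Bounded ratio with bystanders**. -/
theorem star_by (hw : ∀ e, 0 ≤ w e) (hq0 : 0 < q) (hq1 : q ≤ 1) (ρ : Setoid V) (W T : Finset V)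
    {Z : Finset V} (hZ : Z.Nonempty) {E0 S S' : Finset E} (hE : ∀ e ∈ E0, a e ∈ T ∧ b e ∈ T)
    (hS : S ⊆ E0) (hS' : S' ⊆ E0) :
    ZS a b w q (ρ ⊔ blk (W ∪ Z))
        (fun ω => ω ∩ E0 = S ∧ ∀ x ∈ T, ∀ y ∈ W, ¬ (conf a b ω ⊔ ρ) x y) *
        ZS a b w q (ρ ⊔ blk Z) (fun ω => ω ∩ E0 = S') ≤
      ZS a b w q (ρ ⊔ blk Z) (fun ω => ω ∩ E0 = S) *
        ZS a b w q (ρ ⊔ blk (W ∪ Z)) (fun ω => ω ∩ E0 = S') := by
  have hw' : ∀ e, 0 ≤ wO w E0 e := fun e => by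
    rw [wO]
    split_ifs
    · exact le_rfl
    · exact hw e
  have hA : ∀ ω : Finset E, (∀ x ∈ T, ∀ y ∈ W, ¬ (conf a b (S ∪ ω) ⊔ ρ) x y) ↔
      ∀ x ∈ T, ∀ y ∈ W, ¬ (conf a b ω ⊔ (ρ ⊔ conf a b S)) x y := by
    intro ω
    rw [H635.conf_union, sup_assoc, sup_comm (conf a b S)]
  rw [zs_cond a b (ρ ⊔ blk (W ∪ Z)) hS, zs_cond_true a b (ρ ⊔ blk Z) hS,
    zs_cond_true a b (ρ ⊔ blk Z) hS', zs_cond_true a b (ρ ⊔ blk (W ∪ Z)) hS', ZS_congr a b hA]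
  have e1 : ∀ (S Y), (ρ ⊔ blk Y) ⊔ conf a b S = (ρ ⊔ conf a b S) ⊔ blk Y :=
    fun S Y => sup_right_comm _ _ _
  have e2 : ∀ S ⊆ E0, ∀ Y : Finset V, T ⊆ Y → (ρ ⊔ conf a b S) ⊔ blk Y = ρ ⊔ blk Y :=
    fun S hS Y hY => by
      rw [sup_assoc, sup_eq_right.2 ((conf_le_blk a b hS hE).trans (blk_mono hY))]
  have hT1 : T ⊆ T ∪ Z := subset_union_left
  have hT2 : T ⊆ W ∪ T ∪ Z := subset_union_right.trans subset_union_left
  have k1 := dl1_by a b hw' hq0 hq1 (ρ ⊔ conf a b S) W T hZ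
  have k2 := dl2_by a b hw' hq0 hq1 (ρ ⊔ conf a b S') W T hZ
  rw [e2 S hS _ hT1, e2 S hS _ hT2, ← e1, ← e1] at k1
  rw [e2 S' hS' _ hT1, e2 S' hS' _ hT2, ← e1, ← e1] at k2
  have p1 := ZS_pos a b hw' hq0 (ρ ⊔ blk (T ∪ Z))
  have p2 := ZS_pos a b hw' hq0 (ρ ⊔ blk (W ∪ T ∪ Z))
  have p3 := ZS_pos a b hw' hq0 (ρ ⊔ blk Z ⊔ conf a b S)
  have p4 := ZS_pos a b hw' hq0 (ρ ⊔ blk Z ⊔ conf a b S')
  set M := ZS a b (wO w E0) q (ρ ⊔ blk (W ∪ Z) ⊔ conf a b S)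
    (fun ω => ∀ x ∈ T, ∀ y ∈ W, ¬ (conf a b ω ⊔ (ρ ⊔ conf a b S)) x y)
  set Y0 := ZS a b (wO w E0) q (ρ ⊔ blk (T ∪ Z)) (fun _ => True)
  set Y1 := ZS a b (wO w E0) q (ρ ⊔ blk (W ∪ T ∪ Z)) (fun _ => True)
  set z := ZS a b (wO w E0) q (ρ ⊔ blk Z ⊔ conf a b S) (fun _ => True)
  set z' := ZS a b (wO w E0) q (ρ ⊔ blk Z ⊔ conf a b S') (fun _ => True)
  set W' := ZS a b (wO w E0) q (ρ ⊔ blk (W ∪ Z) ⊔ conf a b S') (fun _ => True)
  have h0 : 0 ≤ ∏ e ∈ S, w e := prod_nonneg fun e _ => hw e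
  have h0' : 0 ≤ ∏ e ∈ S', w e := prod_nonneg fun e _ => hw e
  -- `M Y0 ≤ Y1 z`, `Y1 z' ≤ W' Y0`
  have k3 : M * z' ≤ z * W' := by
    have k4 : (M * Y0) * z' ≤ (z * W') * Y0 := by
      calc (M * Y0) * z' ≤ (Y1 * z) * z' := mul_le_mul_of_nonneg_right k1 p4.le
        _ = (Y1 * z') * z := by ring
        _ ≤ (W' * Y0) * z := mul_le_mul_of_nonneg_right k2 p3.le
        _ = _ := by ring
    refine le_of_mul_le_mul_right ?_ p1
    linarith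
  have k5 := mul_le_mul_of_nonneg_left k3 (mul_nonneg h0 h0')
  linarith

/-- **The bilinear inequality with bystanders** on the graph. -/
theorem bil_by (hw : ∀ e, 0 ≤ w e) (hq0 : 0 < q) (hq1 : q ≤ 1) (ρ : Setoid V) (W T : Finset V)
    {Z : Finset V} (hZ : Z.Nonempty) {E0 : Finset E} (hE : ∀ e ∈ E0, a e ∈ T ∧ b e ∈ T)
    {f g k : Finset E → ℝ} (hf : ∀ S, 0 ≤ f S) (hg : ∀ S, 0 ≤ g S)
    (hk1 : ∀ ω, k ω ≤ 1)
    (hk2 : ∀ ω, (∃ x ∈ T, ∃ y ∈ W, (conf a b ω ⊔ ρ) x y) → k ω ≤ 0) :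
    ZF a b w q (ρ ⊔ blk (W ∪ Z)) (fun ω => f (ω ∩ E0) * k ω) *
        ZF a b w q (ρ ⊔ blk Z) (fun ω => g (ω ∩ E0)) ≤
      ZF a b w q (ρ ⊔ blk Z) (fun ω => f (ω ∩ E0)) *
        ZF a b w q (ρ ⊔ blk (W ∪ Z)) (fun ω => g (ω ∩ E0)) := by
  classical
  obtain ⟨M, hM⟩ : ∃ M : Finset E → Prop, ∀ ω, M ω ↔ ∀ x ∈ T, ∀ y ∈ W,
      ¬ (conf a b ω ⊔ ρ) x y := ⟨_, fun _ => Iff.rfl⟩
  have h0 : ZF a b w q (ρ ⊔ blk (W ∪ Z)) (fun ω => f (ω ∩ E0) * k ω) ≤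
      ZF a b w q (ρ ⊔ blk (W ∪ Z)) (fun ω => f (ω ∩ E0) * (if M ω then 1 else 0)) := by
    refine ZF_mono a b hw hq0.le _ fun ω => mul_le_mul_of_nonneg_left ?_ (hf _)
    split_ifs with h
    · exact hk1 ω
    · refine hk2 ω ?_
      rw [hM] at h
      push Not at h
      exact h
  have e1 : ∀ (σ : Setoid V) (h : Finset E → ℝ), ZF a b w q σ (fun ω => h (ω ∩ E0)) =
      ∑ S ∈ E0.powerset, h S * ZS a b w q σ (fun ω => ω ∩ E0 = S) := by
    intro σ h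
    have h2 := ZF_split a b (w := w) (q := q) σ E0 h (fun _ => True)
    simp only [if_true, mul_one, and_true] at h2
    exact h2
  have hg0 : 0 ≤ ZF a b w q (ρ ⊔ blk Z) (fun ω => g (ω ∩ E0)) :=
    sum_nonneg fun ω _ => mul_nonneg (mul_nonneg (prod_nonneg fun e _ => hw e)
      (pow_nonneg hq0.le _)) (hg _)
  refine (mul_le_mul_of_nonneg_right h0 hg0).trans ?_
  rw [ZF_split, e1, e1, e1, sum_mul_sum, sum_mul_sum]
  refine sum_le_sum fun S hS => sum_le_sum fun S' hS' => ?_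
  rw [mem_powerset] at hS hS'
  have h3 := star_by a b hw hq0 hq1 ρ W T hZ hE hS hS'
  rw [← ZS_congr a b (fun ω => and_congr (Iff.refl (ω ∩ E0 = S)) (hM ω))] at h3
  have h4 := mul_le_mul_of_nonneg_left h3 (mul_nonneg (hf S) (hg S'))
  calc _ = f S * g S' * (ZS a b w q (ρ ⊔ blk (W ∪ Z)) (fun ω => ω ∩ E0 = S ∧ M ω) *
          ZS a b w q (ρ ⊔ blk Z) (fun ω => ω ∩ E0 = S')) := by ring
    _ ≤ _ := h4
    _ = _ := by ring

end Vale.Agent.P167.H440
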